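import Mathlib

namespace Vale.Agent.Lib.P174

variable {G : Type*} [Group G]

/-- A word `w 0 * (w (m-1))⁻¹ * w 1 * (w (m-2))⁻¹ * ⋯ * w (m-1) * (w 0)⁻¹` is trivial. -/
theorem palin_prod (m : ℕ) : ∀ (w : ℕ → G),
    ((List.range m).map (fun i => w i * (w (m - 1 - i))⁻¹)).prod = 1 := by
  induction m using Nat.strong_induction_on with
  | _ m ih =>
    intro w
    match m, ih with
    | 0, _ => simp
    | 1, _ => simp
    | (m + 2), ih =>
      have h := ih m (by omega) (fun j => w (j + 1))
      rw [List.range_succ, List.range_succ_eq_map]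
      simp only [List.map_append, List.map_cons, List.map_map, List.prod_append, List.prod_cons,
        List.map_nil, List.prod_nil, mul_one]
      have hmid : List.map ((fun i => w i * (w (m + 2 - 1 - i))⁻¹) ∘ Nat.succ) (List.range m)
          = List.map (fun i => w (i + 1) * (w (m - 1 - i + 1))⁻¹) (List.range m) := by
        apply List.map_congr_left
        intro i hi
        rw [List.mem_range] at hi
        have : m + 2 - 1 - (i + 1) = m - 1 - i + 1 := by omega
        simp only [Function.comp_apply, Nat.succ_eq_add_one]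
        rw [this]
      rw [hmid, h]
      have h1 : m + 2 - 1 - 0 = m + 1 := by omega
      have h2 : m + 2 - 1 - (m + 1) = 0 := by omega
      rw [h1, h2]
      group

/-- Left multiplication by `a` on the second coordinate. -/
def lmul (n : ℕ) (a : G) : Equiv.Perm (ZMod n × G) where
  toFun p := (p.1, a * p.2)
  invFun p := (p.1, a⁻¹ * p.2)
  left_inv p := by simp
  right_inv p := by simp

/-- The diagonal embedding of `G` into the permutations of `ZMod n × G`. -/
def lmulHom (n : ℕ) : G →* Equiv.Perm (ZMod n × G) where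
  toFun := lmul n
  map_one' := by ext p <;> simp [lmul]
  map_mul' a b := by ext p <;> simp [lmul, mul_assoc]

theorem lmulHom_injective (n : ℕ) : Function.Injective (lmulHom (G := G) n) := by
  intro a b hab
  have := congrArg (fun σ : Equiv.Perm (ZMod n × G) => (σ (0, 1)).2) hab
  simpa [lmulHom, lmul] using this

/-- The twisted shift `(k, h) ↦ (k + 1, c k * h)`. -/
def shiftBy (n : ℕ) (c : ZMod n → G) : Equiv.Perm (ZMod n × G) where
  toFun p := (p.1 + 1, c p.1 * p.2)
  invFun p := (p.1 - 1, (c (p.1 - 1))⁻¹ * p.2)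
  left_inv p := by simp
  right_inv p := by simp

theorem word_apply (n : ℕ) (u : ℕ → G) (c : ZMod n → G) (m : ℕ) :
    ∀ (k : ZMod n) (h : G),
      ((List.range m).map (fun i => lmulHom n (u i) * shiftBy n c)).prod (k, h)
        = (k + (m : ZMod n),
          ((List.range m).map (fun i => u i * c (k + ((m - 1 - i : ℕ) : ZMod n)))).prod * h) := by
  induction m with
  | zero => intro k h; simp
  | succ m ih =>
    intro k h
    rw [List.range_succ, List.map_append, List.prod_append, Equiv.Perm.mul_apply]
    have hF : ((List.map (fun i => lmulHom n (u i) * shiftBy n c) [m]).prod) (k, h)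
        = (k + 1, u m * c k * h) := by
      simp [lmulHom, lmul, shiftBy, mul_assoc]
    rw [hF, ih (k + 1) (u m * c k * h)]
    have hmid : List.map (fun i => u i * c (k + 1 + ((m - 1 - i : ℕ) : ZMod n))) (List.range m)
        = List.map (fun i => u i * c (k + ((m + 1 - 1 - i : ℕ) : ZMod n))) (List.range m) := by
      apply List.map_congr_left
      intro i hi
      rw [List.mem_range] at hi
      have : m + 1 - 1 - i = (m - 1 - i) + 1 := by omega
      rw [this]
      push_cast
      ring_nf
    rw [hmid]
    rw [List.map_append, List.prod_append]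
    have hlast : m + 1 - 1 - m = 0 := by omega
    simp only [List.map_cons, List.map_nil, List.prod_cons, List.prod_nil, mul_one, hlast,
      Nat.cast_zero, add_zero]
    refine Prod.ext ?_ ?_
    · push_cast; ring
    · simp only [mul_assoc]

theorem coeff_prod (n : ℕ) [NeZero n] (γ : ZMod n → G) (k : ZMod n) :
    ((List.range n).map
      (fun i : ℕ => γ (i : ZMod n) * (γ (k + ((n - 1 - i : ℕ) : ZMod n)))⁻¹)).prod = 1 := by
  have hnpos : 0 < n := Nat.pos_of_ne_zero (NeZero.ne n)
  set r : ℕ := (k - 1).val with hr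
  have hrlt : r < n := ZMod.val_lt _
  have hrcast : (r : ZMod n) = k - 1 := by rw [hr]; exact ZMod.natCast_zmod_val _
  have hsplit : n = (r + 1) + (n - r - 1) := by omega
  have hn0 : ((n : ℕ) : ZMod n) = 0 := ZMod.natCast_self n
  have hrange : List.range n
      = List.range (r + 1) ++ List.map (fun x => r + 1 + x) (List.range (n - r - 1)) := by
    rw [← List.range_add, ← hsplit]
  rw [hrange, List.map_append, List.prod_append]
  have h1 : List.map (fun i : ℕ => γ (i : ZMod n) * (γ (k + ((n - 1 - i : ℕ) : ZMod n)))⁻¹)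
        (List.range (r + 1))
      = List.map (fun i : ℕ => (fun j : ℕ => γ (j : ZMod n)) i
          * ((fun j : ℕ => γ (j : ZMod n)) (r + 1 - 1 - i))⁻¹) (List.range (r + 1)) := by
    apply List.map_congr_left
    intro i hi
    rw [List.mem_range] at hi
    have e : k + ((n - 1 - i : ℕ) : ZMod n) = ((r + 1 - 1 - i : ℕ) : ZMod n) := by
      have a1 : ((n - 1 - i : ℕ) : ZMod n) = (n : ZMod n) - 1 - (i : ZMod n) := by
        rw [Nat.cast_sub (by omega), Nat.cast_sub (by omega)]; simp
      have a2 : ((r + 1 - 1 - i : ℕ) : ZMod n) = (r : ZMod n) - (i : ZMod n) := by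
        have : r + 1 - 1 - i = r - i := by omega
        rw [this, Nat.cast_sub (by omega)]
      rw [a1, a2, hn0, hrcast]; ring
    simp only [e]
  have h2 : List.map (fun i : ℕ => γ (i : ZMod n) * (γ (k + ((n - 1 - i : ℕ) : ZMod n)))⁻¹)
        (List.map (fun x => r + 1 + x) (List.range (n - r - 1)))
      = List.map (fun i : ℕ => (fun j : ℕ => γ ((r + 1 + j : ℕ) : ZMod n)) i
          * ((fun j : ℕ => γ ((r + 1 + j : ℕ) : ZMod n)) (n - r - 1 - 1 - i))⁻¹)
          (List.range (n - r - 1)) := by
    rw [List.map_map]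
    apply List.map_congr_left
    intro i hi
    rw [List.mem_range] at hi
    have e : k + ((n - 1 - (r + 1 + i) : ℕ) : ZMod n)
        = ((r + 1 + (n - r - 1 - 1 - i) : ℕ) : ZMod n) := by
      have a1 : ((n - 1 - (r + 1 + i) : ℕ) : ZMod n)
          = (n : ZMod n) - 1 - ((r : ZMod n) + 1 + (i : ZMod n)) := by
        rw [Nat.cast_sub (by omega), Nat.cast_sub (by omega)]; push_cast; ring
      have a2 : ((r + 1 + (n - r - 1 - 1 - i) : ℕ) : ZMod n) = (n : ZMod n) - 1 - (i : ZMod n) := by
        have : r + 1 + (n - r - 1 - 1 - i) = n - 1 - i := by omega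
        rw [this, Nat.cast_sub (by omega), Nat.cast_sub (by omega)]; simp
      rw [a1, a2, hrcast]; ring
    simp only [Function.comp, e]
  rw [h1, h2, palin_prod (r + 1) (fun j : ℕ => γ (j : ZMod n)),
    palin_prod (n - r - 1) (fun j : ℕ => γ ((r + 1 + j : ℕ) : ZMod n)), one_mul]

/-- Levin's solution: in `Perm (ZMod n × G)` the element `x = shiftBy n (fun k => (γ k)⁻¹)`
solves `γ 0 · x · γ 1 · x ⋯ γ (n-1) · x = 1`. -/
theorem levin_word (n : ℕ) [NeZero n] (γ : ZMod n → G) :
    ((List.range n).map
      (fun i : ℕ => lmulHom n (γ (i : ZMod n)) * shiftBy n (fun k => (γ k)⁻¹))).prod = 1 := by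
  ext ⟨k, h⟩
  · rw [word_apply n (fun i : ℕ => γ (i : ZMod n)) (fun k => (γ k)⁻¹) n k h]
    simp
  · rw [word_apply n (fun i : ℕ => γ (i : ZMod n)) (fun k => (γ k)⁻¹) n k h]
    simp only [Equiv.Perm.coe_one, id_eq]
    rw [coeff_prod n γ k, one_mul]

/-- List form: for a nonempty list `L = [a₁, …, aₙ]` of elements of `G`, the equation
`a₁ x a₂ x ⋯ aₙ x = 1` has a solution in `Perm (ZMod n × G)`. -/
theorem levin_list (L : List G) (hL : L ≠ []) :
    ∃ x : Equiv.Perm (ZMod L.length × G),
      (L.map (fun a => lmulHom L.length a * x)).prod = 1 := by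
  have hpos : 0 < L.length := List.length_pos_iff.mpr hL
  have : NeZero L.length := ⟨by omega⟩
  let γ : ZMod L.length → G := fun k => L.getD k.val 1
  refine ⟨shiftBy L.length (fun k => (γ k)⁻¹), ?_⟩
  have hLeq : L = (List.range L.length).map (fun i : ℕ => γ (i : ZMod L.length)) := by
    apply List.ext_getElem
    · simp
    · intro i h1 h2
      simp only [List.getElem_map, List.getElem_range]
      show L[i] = L.getD ((i : ZMod L.length)).val 1
      rw [ZMod.val_natCast_of_lt h1, List.getD_eq_getElem _ _ h1]
  have h := levin_word L.length γ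
  calc (L.map (fun a => lmulHom L.length a * shiftBy L.length (fun k => (γ k)⁻¹))).prod
      = (((List.range L.length).map (fun i : ℕ => γ (i : ZMod L.length))).map
          (fun a => lmulHom L.length a * shiftBy L.length (fun k => (γ k)⁻¹))).prod := by
        rw [← hLeq]
    _ = 1 := by
        rw [List.map_map]
        exact h

end Vale.Agent.Lib.P174
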